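import Vale.Agent.P247.Circle

/-!
P247. Donaldson's hypersymplectic deformation conjecture on the four-torus for triples which are
positive along the circles of one direction.
-/

namespace Vale.Agent.Results.P247.CircleAverage

open Vale.Agent.P247

theorem result : ∀ w : Fin 3 → X → V, IsHypersymplectic w → IsNormalized w →
    (CirclePositive w ∨ CirclePair w) → HasHyperkahlerDeformation w := by
  intro w h hn hp
  rcases hp with hp | hp
  · exact deform_of_circlePositive w h hn hp
  · exact deform_of_circlePair w h hn hp

end Vale.Agent.Results.P247.CircleAverage
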