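import Vale.Agent.P247.Classes

/-!
P247. Donaldson's hypersymplectic deformation conjecture on the four-torus: an exact criterion for
the linear path to the mean triple, and classes of triples which satisfy it.
-/

namespace Vale.Agent.Results.P247.MeanPairing

open Vale.Agent.P247

theorem result : ∀ w : Fin 3 → X → V, IsHypersymplectic w → IsNormalized w →
    (PairCondition w ↔ ∀ t ∈ Set.Icc (0 : ℝ) 1,
      IsHypersymplectic fun i x => (1 - t) • w i x + t • meanForm (w i)) ∧
    (PairCondition w ∨ MeanSymmetric w ∨ MeanOrthogonal w ∨ HasTwoConstant w →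
      HasHyperkahlerDeformation w) := by
  intro w h hn
  refine ⟨pair_iff w h hn, ?_⟩
  rintro (hp | hp | hp | hp)
  · exact deform_of_pair w h hn hp
  · exact deform_of_pair w h hn (pair_of_symmetric w h hn hp)
  · exact deform_of_pair w h hn (pair_of_orthogonal w h hn hp)
  · exact main w h hn hp

end Vale.Agent.Results.P247.MeanPairing
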