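import Vale.Agent.P247.ChainInv
import Vale.Agent.P247.GenMove
import Vale.Agent.P247.Repl

/-!
P247. Hypersymplectic triples on the four-torus: one-entry moves.
-/

namespace Vale.Agent.Results.P247.Moves

open Vale.Agent.P247

theorem result :
    (∀ w w' : Fin 3 → X → V, IsHypersymplectic w → IsHypersymplectic w' →
      (∀ i, Cohomologous (w i) (w' i)) → AgreeOnTwo w w' → ∀ t ∈ Set.Icc (0 : ℝ) 1,
        IsHypersymplectic fun i x => (1 - t) • w i x + t • w' i x) ∧
    (∀ w : Fin 3 → X → V, IsHypersymplectic w →
      (HasHyperkahlerDeformation w ↔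
        ∃ θ : Fin 3 → X → V, IsHyperkahler θ ∧ Relation.ReflTransGen Move w θ)) ∧
    (∀ w v : Fin 3 → X → V, IsHypersymplectic w → IsNormalized w →
      Relation.ReflTransGen Move w v →
      (∀ i x (s : ℝ), v i (x + s • Pi.single 0 1) = v i x) → HasHyperkahlerDeformation w) ∧
    (∀ w : Fin 3 → X → V, IsHypersymplectic w → IsNormalized w → Replaceable w →
      HasHyperkahlerDeformation w) :=
  ⟨fun w w' h h' hco hag t ht => gen_move w w' h h' hco hag t ht,
    fun w hw => deformation_iff_chain w hw,
    fun w v h hn hc hinv => deform_of_chain_inv w h hn v hc hinv,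
    fun w h hn hr => deform_of_replaceable w h hn hr⟩

end Vale.Agent.Results.P247.Moves
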