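import Vale.Agent.P247.Reach

/-!
P247. Donaldson's hypersymplectic deformation conjecture on the four-torus: triples from which
one-entry moves lead to one of four classes.
-/

namespace Vale.Agent.Results.P247.TwoConstant

open Vale.Agent.P247

theorem result :
    (∀ w : Fin 3 → X → V, IsHypersymplectic w →
      (HasHyperkahlerDeformation w ↔
        ∃ θ : Fin 3 → X → V, IsHyperkahler θ ∧ Relation.ReflTransGen Move w θ)) ∧
    (∀ w v : Fin 3 → X → V, IsHypersymplectic w → IsNormalized w →
      Relation.ReflTransGen Move w v →
      (HasTwoConstant v ∨ PairCondition v ∨ CirclePair v ∨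
        (∀ i x (s : ℝ), v i (x + s • Pi.single 0 1) = v i x)) →
      HasHyperkahlerDeformation w) := by
  refine ⟨fun w hw => deformation_iff_chain w hw, fun w v h hn hc hv => ?_⟩
  rcases hv with hv | hv | hv | hv
  · exact deform_of_chain w v h hn hc fun h1 h2 => main v h1 h2 hv
  · exact deform_of_chain w v h hn hc fun h1 h2 => deform_of_pair v h1 h2 hv
  · exact deform_of_chain w v h hn hc fun h1 h2 => deform_of_circlePair v h1 h2 hv
  · exact deform_of_chain_inv w h hn v hc hv

end Vale.Agent.Results.P247.TwoConstant
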